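import Vale.Agent.P367.Bdl.B1

open Filter Topology Vale.Agent.P367.Gap

/-- For the Sherrington-Kirkpatrick model: the limits defining `P_*` and `v_p(γ, β)` exist, the
optimal depth-`p` QAOA value `Q_p` (supremum over all real angles) is smaller than `P_*` by an
explicit amount, and angles with total phase at most `T` stay below `P_*` by an explicit amount
that does not depend on the depth. -/
theorem Vale.Agent.Results.P367.FiniteDepth.result :
    Tendsto groundValue atTop (𝓝 Pstar) ∧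
    (∀ (p : ℕ) (γ β : Fin p → ℝ),
      Tendsto (fun n : ℕ => qaoaValue n p γ β) atTop (𝓝 (vLim p γ β))) ∧
    (∀ p : ℕ, BddAbove (Set.range fun a : (Fin p → ℝ) × (Fin p → ℝ) => vLim p a.1 a.2)) ∧
    (∀ p : ℕ, Qsup p ≤ Pstar - Real.exp (-(10 ^ 6 * 16 ^ p))) ∧
    (∀ (T : ℝ) (p : ℕ) (γ β : Fin p → ℝ), ∑ k, |γ k| ≤ T →
      vLim p γ β ≤ Pstar - Real.exp (-(10 ^ 8 * (1 + T) ^ 2))) :=
  ⟨Vale.Agent.P367.Lim.tendsto_Pstar, Vale.Agent.P367.Lim.tendsto_vLim,
    Vale.Agent.P367.Lim.bdd_vLim, Vale.Agent.P367.Lim.Qsup_le,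
    Vale.Agent.P367.Lim.vLim_le_phase⟩
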