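import Vale.Agent.P367.Bd3.B10
import Vale.Agent.P367.Bd3.B1

open Filter Topology Vale.Agent.P367.Gap

/-- For the Sherrington-Kirkpatrick model the limits defining `P_*` and `v_p(γ, β)` exist, every
optimal depth-`p` QAOA value `Q_p` (supremum over all real angles) is finite and smaller than `P_*`
by an explicit amount, and `Q_p → P_*` as `p → ∞`. The last part is the limit-free form. -/
theorem Vale.Agent.Results.P367.Full.result :
    Tendsto groundValue atTop (𝓝 Pstar) ∧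
    (∀ (p : ℕ) (γ β : Fin p → ℝ),
      Tendsto (fun n : ℕ => qaoaValue n p γ β) atTop (𝓝 (vLim p γ β))) ∧
    (∀ p : ℕ, BddAbove (Set.range fun a : (Fin p → ℝ) × (Fin p → ℝ) => vLim p a.1 a.2)) ∧
    (∀ p : ℕ, Qsup p ≤ Pstar - Real.exp (-(10 ^ 6 * 16 ^ p))) ∧
    Tendsto Qsup atTop (𝓝 Pstar) ∧
    (∀ ε : ℝ, 0 < ε → ∃ (p : ℕ) (γ β : Fin p → ℝ),
      ∀ᶠ n in atTop, groundValue n - ε ≤ qaoaValue n p γ β) :=
  ⟨Vale.Agent.P367.Lim.tendsto_Pstar, Vale.Agent.P367.Lim.tendsto_vLim,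
    Vale.Agent.P367.Lim.bdd_vLim, Vale.Agent.P367.Lim.Qsup_le,
    Vale.Agent.P367.tendsto_Qsup_Pstar,
    Vale.Agent.P367.limit_free Vale.Agent.P367.Lim.tendsto_Pstar
      Vale.Agent.P367.Lim.tendsto_vLim Vale.Agent.P367.tendsto_Qsup_Pstar⟩
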